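import Mathlib

/-!
Phases of products of monomials `X ^ i * Y ^ j`, and exponents separating all orders of the factors.
-/

open Finset

namespace P199K.Vanish

/-- The phase exponent of `∏ X ^ i * Y ^ j`. -/
def phase {R : Type*} [CommSemiring R] : List (R × R) → R
  | [] => 0
  | p :: l => phase l + p.2 * (l.map Prod.fst).sum

theorem map_phase {R S : Type*} [CommSemiring R] [CommSemiring S] (f : R →+* S) :
    ∀ l : List (R × R), f (phase l) = phase (l.map fun p => (f p.1, f p.2))
  | [] => by simp [phase]
  | p :: l => by
    simp only [phase, List.map_cons, map_add, map_mul, map_phase f l, map_list_sum, List.map_map]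
    rfl

theorem phase_scale {R : Type*} [CommSemiring R] (r : R) :
    ∀ l : List (R × R), phase (l.map fun p => (p.1, r * p.2)) = r * phase l
  | [] => by simp [phase]
  | p :: l => by
    simp only [phase, List.map_cons, phase_scale r l, List.map_map, mul_add, mul_assoc]
    rfl

theorem phase_ofFn {R : Type*} [CommSemiring R] : ∀ {n : ℕ} (g : Fin n → R × R),
    phase (List.ofFn g) = ∑ a, ∑ b, if a < b then (g a).2 * (g b).1 else 0
  | 0, g => by simp [phase]
  | n + 1, g => by
    rw [List.ofFn_succ, phase, phase_ofFn (fun i => g i.succ), Fin.sum_univ_succ, List.map_ofFn,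
      List.sum_ofFn, Finset.mul_sum, add_comm]
    congr 1
    · rw [Fin.sum_univ_succ]
      simp
    · refine Finset.sum_congr rfl fun a _ => ?_
      rw [Fin.sum_univ_succ]
      simp [Fin.succ_lt_succ_iff]

/-- Exponents with the last one fixed by the constraints `∑ I = -1`, `∑ J = 0`. -/
def expI {R : Type*} [CommRing R] {l : ℕ} (i : Fin l → R) : Fin (l + 1) → R :=
  Fin.snoc i (-1 - ∑ p, i p)

/-- Exponents with the last one fixed by the constraint `∑ J = 0`. -/
def expJ {R : Type*} [CommRing R] {l : ℕ} (j : Fin l → R) : Fin (l + 1) → R :=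
  Fin.snoc j (-∑ p, j p)

theorem sum_expI {R : Type*} [CommRing R] {l : ℕ} (i : Fin l → R) : ∑ p, expI i p = -1 := by
  simp [expI, Fin.sum_univ_castSucc]

theorem sum_expJ {R : Type*} [CommRing R] {l : ℕ} (j : Fin l → R) : ∑ p, expJ j p = 0 := by
  simp [expJ, Fin.sum_univ_castSucc]

/-- The phase of the factors in the order `π`. -/
def phasePerm {R : Type*} [CommRing R] {l : ℕ} (π : Equiv.Perm (Fin (l + 1))) (i j : Fin l → R) : R :=
  phase (List.ofFn fun a => (expI i (π a), expJ j (π a)))

theorem phasePerm_eq {R : Type*} [CommRing R] {l : ℕ} (π : Equiv.Perm (Fin (l + 1)))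
    (i j : Fin l → R) :
    phasePerm π i j = ∑ p, ∑ q, if π.symm p < π.symm q then expJ j p * expI i q else 0 := by
  rw [phasePerm, phase_ofFn]
  refine Fintype.sum_equiv π _ _ fun a => Fintype.sum_equiv π _ _ fun b => ?_
  simp

/-- The relative order `p` before `q`, as an integer. -/
def before {l : ℕ} (π : Equiv.Perm (Fin (l + 1))) (p q : Fin (l + 1)) : ℤ :=
  if π.symm p < π.symm q then 1 else 0

theorem phasePerm_bil {l : ℕ} (π : Equiv.Perm (Fin (l + 1))) (i j : Fin l → ℤ) :
    phasePerm π i j = ∑ x, expJ j x * ∑ y, before π x y * expI i y := by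
  rw [phasePerm_eq]
  refine Finset.sum_congr rfl fun x _ => ?_
  rw [Finset.mul_sum]
  refine Finset.sum_congr rfl fun y _ => ?_
  rw [before]; split <;> simp

theorem phasePerm_single {l : ℕ} (π : Equiv.Perm (Fin (l + 1))) (p q : Fin l) :
    phasePerm π (0 : Fin l → ℤ) (Pi.single p 1) = -before π p.castSucc (Fin.last l) ∧
    (p ≠ q → phasePerm π (Pi.single q (1 : ℤ)) (Pi.single p 1) =
      before π p.castSucc q.castSucc - 2 * before π p.castSucc (Fin.last l)
        - before π (Fin.last l) q.castSucc) := by
  have hrr : before π (Fin.last l) (Fin.last l) = 0 := by simp [before]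
  constructor
  · rw [phasePerm_bil]
    simp [Fin.sum_univ_castSucc, expI, expJ, Pi.single_apply, hrr]
  · intro hpq
    rw [phasePerm_bil]
    simp [Fin.sum_univ_castSucc, expI, expJ, Pi.single_apply, hrr]
    ring

theorem before_swap {l : ℕ} (π : Equiv.Perm (Fin (l + 1))) {p q : Fin (l + 1)} (h : p ≠ q) :
    before π q p = 1 - before π p q := by
  have := π.symm.injective.ne h
  rcases lt_or_gt_of_ne this with h1 | h1 <;> simp [before, h1, h1.not_gt]

theorem eq_of_phasePerm {l : ℕ} {π π' : Equiv.Perm (Fin (l + 1))}
    (h : ∀ i j : Fin l → ℤ, phasePerm π i j = phasePerm π' i j) : π = π' := by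
  have h0 : ∀ p : Fin l, before π p.castSucc (Fin.last l) = before π' p.castSucc (Fin.last l) :=
    fun p => by
    have := h 0 (Pi.single p 1)
    rw [(phasePerm_single π p p).1, (phasePerm_single π' p p).1] at this
    omega
  have hb : ∀ p q, before π p q = before π' p q := by
    intro p q
    rcases eq_or_ne p q with rfl | hpq
    · simp [before]
    induction p using Fin.lastCases with
    | last =>
      induction q using Fin.lastCases with
      | last => exact absurd rfl hpq
      | cast q => rw [before_swap π (Fin.castSucc_ne_last q), before_swap π' (Fin.castSucc_ne_last q), h0]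
    | cast p =>
      induction q using Fin.lastCases with
      | last => exact h0 p
      | cast q =>
        have hpq' : p ≠ q := fun e => hpq (e ▸ rfl)
        have := h (Pi.single q 1) (Pi.single p 1)
        rw [(phasePerm_single π p q).2 hpq', (phasePerm_single π' p q).2 hpq',
          before_swap π (Fin.castSucc_ne_last q), before_swap π' (Fin.castSucc_ne_last q), h0, h0]
          at this
        omega
  have hmono : StrictMono (fun a => π'.symm (π a)) := fun a b hab => by
    have := hb (π a) (π b)
    simp only [before, Equiv.symm_apply_apply, if_pos hab] at this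
    by_contra hc
    rw [if_neg hc] at this
    exact one_ne_zero this
  have hid : (fun a => π'.symm (π a)) = id :=
    (StrictMono.range_inj hmono strictMono_id).1 (by
      rw [Set.range_id, Set.range_eq_univ]
      exact π'.symm.surjective.comp π.surjective)
  ext1 a
  exact π'.symm_apply_eq.1 (congrFun hid a)

/-- Integer exponents separating all orders at once. -/
theorem exists_separating (l : ℕ) :
    ∃ i j : Fin l → ℤ, Function.Injective fun π : Equiv.Perm (Fin (l + 1)) => phasePerm π i j := by
  classical
  let I : Fin l → MvPolynomial (Fin l ⊕ Fin l) ℤ := fun p => MvPolynomial.X (Sum.inl p)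
  let J : Fin l → MvPolynomial (Fin l ⊕ Fin l) ℤ := fun p => MvPolynomial.X (Sum.inr p)
  have heval : ∀ (x : Fin l ⊕ Fin l → ℤ) π, MvPolynomial.eval x (phasePerm π I J) =
      phasePerm π (fun p => x (Sum.inl p)) fun p => x (Sum.inr p) := fun x π => by
    rw [phasePerm, phasePerm, map_phase, List.map_ofFn]
    congr 1
    refine congrArg List.ofFn (funext fun a => ?_)
    have e : ∀ q, MvPolynomial.eval x (expI I q) = expI (fun p => x (Sum.inl p)) q ∧
        MvPolynomial.eval x (expJ J q) = expJ (fun p => x (Sum.inr p)) q := fun q => by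
      induction q using Fin.lastCases <;> simp [expI, expJ, I, J]
    simp [(e (π a)).1, (e (π a)).2]
  have hne : ∏ d ∈ (Finset.univ.filter fun d : Equiv.Perm (Fin (l + 1)) × Equiv.Perm (Fin (l + 1)) =>
      d.1 ≠ d.2), (phasePerm d.1 I J - phasePerm d.2 I J) ≠ 0 := by
    refine Finset.prod_ne_zero_iff.2 fun d hd h => (Finset.mem_filter.1 hd).2 ?_
    refine eq_of_phasePerm fun i j => ?_
    have := congrArg (MvPolynomial.eval (Sum.elim i j)) h
    rw [map_sub, map_zero, heval, heval, sub_eq_zero] at this
    exact this
  obtain ⟨x, hx⟩ : ∃ x, MvPolynomial.eval x (∏ d ∈ (Finset.univ.filter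
      fun d : Equiv.Perm (Fin (l + 1)) × Equiv.Perm (Fin (l + 1)) => d.1 ≠ d.2),
      (phasePerm d.1 I J - phasePerm d.2 I J)) ≠ 0 := by
    by_contra hall
    push Not at hall
    exact hne (MvPolynomial.funext fun x => by rw [hall, map_zero])
  refine ⟨fun p => x (Sum.inl p), fun p => x (Sum.inr p), fun π π' h => ?_⟩
  by_contra hn
  rw [map_prod] at hx
  refine Finset.prod_ne_zero_iff.1 hx (π, π') (Finset.mem_filter.2 ⟨Finset.mem_univ _, hn⟩) ?_
  rw [map_sub, heval, heval, sub_eq_zero]
  exact h

end P199K.Vanish
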