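import Vale.Agent.P199.Kurosh.Stmts
import Vale.Agent.P199.Kurosh.Vanish.Phase

/-!
Products of monomials `X ^ i * Y ^ j` in a symbol extension.
-/

namespace P199K.Vanish

variable {S : Stg} {M : ℕ} (E : Sym S M)

/-- The root of unity of a symbol extension in its ground field. -/
def zz : E.T.F := E.emb.iF E.ζ

theorem zz_prim : IsPrimitiveRoot (zz E) M := E.prim.map_of_injective E.emb.iF.injective

theorem Y_X_pow (i : ℕ) : E.Y * E.X ^ i = algebraMap E.T.F E.T.C (zz E ^ i) * (E.X ^ i * E.Y) := by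
  induction i with
  | zero => simp
  | succ i ih =>
    rw [pow_succ E.X i, ← mul_assoc E.Y, ih, mul_assoc, mul_assoc, E.YX, ← mul_assoc (E.X ^ i),
      (Algebra.commutes (E.emb.iF E.ζ) (E.X ^ i)).symm, pow_succ (zz E) i, map_mul]
    simp only [zz, mul_assoc]

theorem Y_pow_X_pow (j i : ℕ) :
    E.Y ^ j * E.X ^ i = algebraMap E.T.F E.T.C (zz E ^ (j * i)) * (E.X ^ i * E.Y ^ j) := by
  induction j with
  | zero => simp
  | succ j ih =>
    rw [pow_succ' E.Y j, mul_assoc, ih, ← mul_assoc E.Y, ← Algebra.commutes (zz E ^ (j * i)) E.Y,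
      mul_assoc, ← mul_assoc E.Y, Y_X_pow, add_mul, one_mul, pow_add, map_mul]
    simp only [mul_assoc]

/-- A product of monomials is a phase times a monomial. -/
theorem prod_mono : ∀ l : List (ℕ × ℕ), (l.map fun p => E.X ^ p.1 * E.Y ^ p.2).prod =
    algebraMap E.T.F E.T.C (zz E ^ phase l) *
      (E.X ^ (l.map Prod.fst).sum * E.Y ^ (l.map Prod.snd).sum)
  | [] => by simp [phase]
  | p :: l => by
    rw [List.map_cons, List.prod_cons, prod_mono l, ← mul_assoc,
      ← Algebra.commutes (zz E ^ phase l) (E.X ^ p.1 * E.Y ^ p.2)]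
    simp only [List.map_cons, List.sum_cons, phase, pow_add, map_mul, mul_assoc]
    congr 1
    rw [← mul_assoc (E.Y ^ p.2), Y_pow_X_pow, mul_assoc, ← mul_assoc (E.X ^ p.1),
      ← Algebra.commutes (zz E ^ (p.2 * (l.map Prod.fst).sum)) (E.X ^ p.1)]
    simp only [mul_assoc]

theorem pow_mem_range {z : E.T.C} (hz : z ∈ Set.range (algebraMap E.T.F E.T.C)) (q : ℕ) :
    z ^ q ∈ Set.range (algebraMap E.T.F E.T.C) := by
  obtain ⟨a, rfl⟩ := hz
  exact ⟨a ^ q, map_pow _ a q⟩

/-- Monomials of every degree lie in the monomial span. -/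
theorem mono_mem (hM : 0 < M) (i j : ℕ) : E.X ^ i * E.Y ^ j ∈ E.E := by
  obtain ⟨a, ha⟩ := pow_mem_range E E.X_pow (i / M)
  obtain ⟨b, hb⟩ := pow_mem_range E E.Y_pow (j / M)
  have hi : E.X ^ i = a • E.X ^ (i % M) := by
    rw [Algebra.smul_def, ha, ← pow_mul, ← pow_add, Nat.div_add_mod]
  have hj : E.Y ^ j = b • E.Y ^ (j % M) := by
    rw [Algebra.smul_def, hb, ← pow_mul, ← pow_add, Nat.div_add_mod]
  rw [hi, hj, smul_mul_smul_comm]
  exact Submodule.smul_mem _ _
    (Submodule.subset_span ⟨(⟨i % M, Nat.mod_lt _ hM⟩, ⟨j % M, Nat.mod_lt _ hM⟩), rfl⟩)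

theorem one_mem_E (hM : 0 < M) : (1 : E.T.C) ∈ E.E := by simpa using mono_mem E hM 0 0

theorem X_mem_E (hM : 0 < M) : E.X ∈ E.E := by simpa using mono_mem E hM 1 0

theorem Y_mem_E (hM : 0 < M) : E.Y ∈ E.E := by simpa using mono_mem E hM 0 1

theorem mul_mem_E (hM : 0 < M) {a b : E.T.C} (ha : a ∈ E.E) (hb : b ∈ E.E) : a * b ∈ E.E := by
  induction ha using Submodule.span_induction with
  | mem x hx =>
    induction hb using Submodule.span_induction with
    | mem y hy =>
      obtain ⟨p, rfl⟩ := hx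
      obtain ⟨q, rfl⟩ := hy
      have := prod_mono E [((p.1 : ℕ), (p.2 : ℕ)), ((q.1 : ℕ), (q.2 : ℕ))]
      simp only [List.map_cons, List.map_nil, List.prod_cons, List.prod_nil, mul_one] at this
      rw [this, ← Algebra.smul_def]
      exact Submodule.smul_mem _ _ (mono_mem E hM _ _)
    | zero => rw [mul_zero]; exact zero_mem _
    | add y z _ _ hy hz => rw [mul_add]; exact add_mem hy hz
    | smul r y _ hy => rw [mul_smul_comm]; exact Submodule.smul_mem _ _ hy
  | zero => rw [zero_mul]; exact zero_mem _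
  | add y z _ _ hy hz => rw [add_mul]; exact add_mem hy hz
  | smul r y _ hy => rw [smul_mul_assoc]; exact Submodule.smul_mem _ _ hy

theorem prod_mem_E (hM : 0 < M) {l : List E.T.C} (h : ∀ e ∈ l, e ∈ E.E) : l.prod ∈ E.E := by
  induction l with
  | nil => exact one_mem_E E hM
  | cons e l ih =>
    rw [List.prod_cons]
    exact mul_mem_E E hM (h e (by simp)) (ih fun e he => h e (by simp [he]))

end P199K.Vanish
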