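import Vale.Agent.P199.Kurosh.Vanish.Trace
import Vale.Agent.P199.Kurosh.Vanish.Mono

/-!
Separation of words by traces: for large `M`, the functions `U ↦ τ (X * U^v)` on pairs from the monomial
span are linearly independent over the words `v` of a given length.
-/

open Finset

namespace P199K.Vanish

theorem prod_ofFn_sum {A ι : Type} [Ring A] [Fintype ι] {n : ℕ} (F : Fin n → ι → A) :
    (List.ofFn fun a => ∑ p, F a p).prod = ∑ g : Fin n → ι, (List.ofFn fun a => F a (g a)).prod := by
  classical
  have := (MultilinearMap.mkPiAlgebraFin ℤ n A).map_sum F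
  simpa [MultilinearMap.mkPiAlgebraFin_apply] using this

theorem prod_ofFn_ite {A : Type} [Semiring A] : ∀ {n : ℕ} (P : Fin n → Prop) [DecidablePred P]
    (x : Fin n → A), (List.ofFn fun a => if P a then x a else 0).prod =
      if ∀ a, P a then (List.ofFn x).prod else 0
  | 0, P, _, x => by simp
  | n + 1, P, _, x => by
    rw [List.ofFn_succ, List.prod_cons, prod_ofFn_ite (fun a => P a.succ) fun a => x a.succ,
      List.ofFn_succ, List.prod_cons]
    by_cases h0 : P 0
    · simp [h0, Fin.forall_fin_succ]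
    · simp [h0, Fin.forall_fin_succ]

/-- Signed sum over the sets containing a given set. -/
theorem sum_sign_supset {ι R : Type} [Fintype ι] [DecidableEq ι] [CommRing R] (A : Finset ι) :
    ∑ S : Finset ι, (-1 : R) ^ S.card * (if A ⊆ S then 1 else 0) =
      if A = univ then (-1) ^ Fintype.card ι else 0 := by
  have h := Finset.prod_add (fun _ : ι => (-1 : R)) (fun p => if p ∈ A then 0 else 1) univ
  rw [Finset.powerset_univ] at h
  have h' : ∀ S : Finset ι, (-1 : R) ^ S.card * (if A ⊆ S then 1 else 0) =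
      (∏ _p ∈ S, (-1 : R)) * ∏ p ∈ univ \ S, if p ∈ A then 0 else 1 := fun S => by
    rw [Finset.prod_const]
    congr 1
    by_cases hs : A ⊆ S
    · rw [if_pos hs, Finset.prod_eq_one]
      intro p hp
      rw [if_neg fun hA => (Finset.mem_sdiff.1 hp).2 (hs hA)]
    · obtain ⟨p, hpA, hpS⟩ := Finset.not_subset.1 hs
      rw [if_neg hs, Finset.prod_eq_zero (i := p) (by simp [hpS]) (by simp [hpA])]
  rw [Finset.sum_congr rfl fun S _ => h' S, ← h]
  by_cases hA : A = univ
  · subst hA
    simp
  · obtain ⟨p, hp⟩ : ∃ p, p ∉ A := by simpa [Finset.eq_univ_iff_forall] using hA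
    rw [if_neg hA, Finset.prod_eq_zero (i := p) (mem_univ p) (by simp [hp])]

variable {F A : Type} [Field F] [Ring A] [Algebra F A] (φ : A →ₗ[F] F)

/-- Polarisation of a combination of word functions. -/
theorem polarise {n : ℕ} {σ : Type} [DecidableEq σ] [Fintype σ] (c : (Fin n → σ) → F)
    (w : Fin n → σ) (V : Fin n → A)
    (h : ∀ S : Finset (Fin n), ∑ v, c v * φ (List.ofFn fun a =>
      ∑ p, if p ∈ S ∧ w p = v a then V p else 0).prod = 0) :
    ∑ π : Equiv.Perm (Fin n), c (w ∘ π) * φ (List.ofFn fun a => V (π a)).prod = 0 := by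
  classical
  have hS : ∀ S : Finset (Fin n), ∑ g : Fin n → Fin n,
      (if univ.image g ⊆ S then c (w ∘ g) * φ (List.ofFn fun a => V (g a)).prod else 0) = 0 := by
    intro S
    refine Eq.trans ?_ (h S)
    simp_rw [prod_ofFn_sum, map_sum, Finset.mul_sum]
    rw [Finset.sum_comm]
    refine Finset.sum_congr rfl fun g _ => ?_
    simp_rw [prod_ofFn_ite (fun a => g a ∈ S ∧ w (g a) = _) fun a => V (g a)]
    rw [Finset.sum_eq_single (w ∘ g)]
    · by_cases hg : univ.image g ⊆ S
      · rw [if_pos hg, if_pos fun a => ⟨hg (Finset.mem_image_of_mem g (mem_univ a)), rfl⟩]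
      · rw [if_neg hg, if_neg fun h => hg (by
          intro p hp
          obtain ⟨a, -, rfl⟩ := Finset.mem_image.1 hp
          exact (h a).1)]
        simp
    · intro v _ hv
      rw [if_neg fun h => hv (funext fun a => ((h a).2).symm)]
      simp
    · simp
  have key : ∑ S : Finset (Fin n), (-1 : F) ^ S.card * ∑ g : Fin n → Fin n,
      (if univ.image g ⊆ S then c (w ∘ g) * φ (List.ofFn fun a => V (g a)).prod else 0) = 0 := by
    simp [hS]
  simp_rw [Finset.mul_sum] at key
  rw [Finset.sum_comm] at key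
  have hg : ∀ g : Fin n → Fin n, ∑ S : Finset (Fin n), (-1 : F) ^ S.card *
      (if univ.image g ⊆ S then c (w ∘ g) * φ (List.ofFn fun a => V (g a)).prod else 0) =
      if Function.Bijective g then
        (-1) ^ n * (c (w ∘ g) * φ (List.ofFn fun a => V (g a)).prod) else 0 := by
    intro g
    have : ∀ S : Finset (Fin n), (-1 : F) ^ S.card *
        (if univ.image g ⊆ S then c (w ∘ g) * φ (List.ofFn fun a => V (g a)).prod else 0) =
        ((-1 : F) ^ S.card * (if univ.image g ⊆ S then 1 else 0)) *
          (c (w ∘ g) * φ (List.ofFn fun a => V (g a)).prod) := fun S => by split <;> simp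
    rw [Finset.sum_congr rfl fun S _ => this S, ← Finset.sum_mul, sum_sign_supset]
    have hiff : univ.image g = univ ↔ Function.Bijective g := by
      rw [← Finite.surjective_iff_bijective]
      simp [Finset.eq_univ_iff_forall, Function.Surjective]
    by_cases hb : Function.Bijective g
    · rw [if_pos hb, if_pos (hiff.2 hb), Fintype.card_fin]
    · rw [if_neg hb, if_neg (mt hiff.1 hb), zero_mul]
  rw [Finset.sum_congr rfl fun g _ => hg g, ← Finset.sum_filter, ← Finset.mul_sum] at key
  have hperm := (mul_eq_zero.1 key).resolve_left (pow_ne_zero _ (neg_ne_zero.2 one_ne_zero))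
  rw [← hperm]
  refine Finset.sum_nbij (fun π => (π : Fin n → Fin n))
    (fun π _ => Finset.mem_filter.2 ⟨mem_univ _, π.bijective⟩)
    (fun π _ π' _ h => Equiv.coe_fn_injective h) (fun g hg => ?_) fun π _ => rfl
  exact ⟨Equiv.ofBijective g (Finset.mem_filter.1 hg).2, by simp, rfl⟩

/-- Separation of words of length `l + 1`. -/
theorem sep (l : ℕ) : ∃ M₀ : ℕ, ∀ M : ℕ, M₀ ≤ M → ∀ {S : Stg} (E : Sym S M)
    (c : (Fin (l + 1) → Fin 2) → E.T.F),
    (∀ U : Fin 2 → E.T.C, (∀ s, U s ∈ E.E) →
      ∑ v, c v * E.T.τ (E.X * (List.ofFn fun a => U (v a)).prod) = 0) → c = 0 := by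
  classical
  obtain ⟨i, j, hinj⟩ := exists_separating l
  let B : ℕ := ∑ π : Equiv.Perm (Fin (l + 1)), (phasePerm π i j).natAbs
  refine ⟨2 * B + 1, fun M hM S E c hc => ?_⟩
  have hM0 : 0 < M := by omega
  have : NeZero M := ⟨hM0.ne'⟩
  let I : Fin (l + 1) → ℕ := fun p => ((expI i p : ℤ) : ZMod M).val
  let J : Fin (l + 1) → ℕ := fun p => ((expJ j p : ℤ) : ZMod M).val
  let e : Equiv.Perm (Fin (l + 1)) → ℕ := fun π => ((phasePerm π i j : ℤ) : ZMod M).val
  have he : Function.Injective fun π => zz E ^ e π := by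
    intro π π' h
    have h1 : e π = e π' := (zz_prim E).pow_inj (ZMod.val_lt _) (ZMod.val_lt _) h
    have h2 := (ZMod.intCast_eq_intCast_iff_dvd_sub _ _ M).1 (ZMod.val_injective M h1)
    refine hinj ?_
    have hb : ∀ ρ : Equiv.Perm (Fin (l + 1)), (phasePerm ρ i j).natAbs ≤ B := fun ρ =>
      Finset.single_le_sum (f := fun ρ : Equiv.Perm (Fin (l + 1)) => (phasePerm ρ i j).natAbs)
        (fun _ _ => Nat.zero_le _) (mem_univ ρ)
    have h3 := Int.eq_zero_of_dvd_of_natAbs_lt_natAbs h2 (by
      have := hb π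
      have := hb π'
      have := Int.natAbs_sub_le (phasePerm π' i j) (phasePerm π i j)
      simp only [Int.natAbs_natCast]
      omega)
    exact (sub_eq_zero.1 h3).symm
  have hsumI : (((1 + ∑ p, I p : ℕ)) : ZMod M) = 0 := by
    have : (((∑ p, expI i p : ℤ)) : ZMod M) = -1 := by rw [sum_expI]; simp
    push_cast at this
    simp [I, this]
  have hsumJ : ∀ k : ℕ, (((∑ p, k * J p : ℕ)) : ZMod M) = 0 := fun k => by
    have : (((∑ p, expJ j p : ℤ)) : ZMod M) = 0 := by rw [sum_expJ]; simp
    push_cast at this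
    simp [J, ← Finset.mul_sum, this]
  obtain ⟨x, hx⟩ : E.X ^ (1 + ∑ p, I p) ∈ Set.range (algebraMap E.T.F E.T.C) := by
    obtain ⟨q, hq⟩ := (ZMod.natCast_eq_zero_iff _ _).1 hsumI
    rw [hq, pow_mul]
    exact pow_mem_range E E.X_pow q
  funext w
  have hsum : ∀ k : ℕ, ∑ π : Equiv.Perm (Fin (l + 1)), c (w ∘ π) * (zz E ^ e π) ^ k = 0 := by
    intro k
    let V : Fin (l + 1) → E.T.C := fun p => E.X ^ I p * E.Y ^ (k * J p)
    have h := polarise ((E.T.τ).comp (LinearMap.mulLeft E.T.F E.X)) c w V fun T =>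
      hc (fun s => ∑ p, if p ∈ T ∧ w p = s then V p else 0) fun s => Submodule.sum_mem _ fun p _ => by
        split
        · exact mono_mem E hM0 _ _
        · exact zero_mem _
    obtain ⟨y, hy⟩ : E.Y ^ (∑ p, k * J p) ∈ Set.range (algebraMap E.T.F E.T.C) := by
      obtain ⟨q, hq⟩ := (ZMod.natCast_eq_zero_iff _ _).1 (hsumJ k)
      rw [hq, pow_mul]
      exact pow_mem_range E E.Y_pow q
    have hval : ∀ π : Equiv.Perm (Fin (l + 1)),
        E.T.τ (E.X * (List.ofFn fun a => V (π a)).prod) =
          (zz E ^ e π) ^ k * (x * y * E.T.τ 1) := by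
      intro π
      have hp := prod_mono E (List.ofFn fun a => (I (π a), k * J (π a)))
      simp only [List.map_ofFn, List.sum_ofFn, Function.comp_def] at hp
      rw [show (List.ofFn fun a => V (π a)).prod = _ from hp,
        Equiv.sum_comp π I, Equiv.sum_comp π fun p => k * J p]
      have hz : zz E ^ phase (List.ofFn fun a => (I (π a), k * J (π a))) = (zz E ^ e π) ^ k := by
        rw [← pow_mul, (zz_prim E).isOfFinOrder hM0.ne' |>.pow_eq_pow_iff_modEq,
          ← (zz_prim E).eq_orderOf, ← ZMod.natCast_eq_natCast_iff]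
        have hcast := map_phase (Nat.castRingHom (ZMod M))
          (List.ofFn fun a => (I (π a), k * J (π a)))
        simp only [Nat.coe_castRingHom, List.map_ofFn, Function.comp_def] at hcast
        rw [hcast]
        have hint := map_phase (Int.castRingHom (ZMod M))
          (List.ofFn fun a => (expI i (π a), expJ j (π a)))
        simp only [Int.coe_castRingHom, List.map_ofFn, Function.comp_def] at hint
        have hs := phase_scale (k : ZMod M)
          (List.ofFn fun a => (((expI i (π a) : ℤ) : ZMod M), ((expJ j (π a) : ℤ) : ZMod M)))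
        simp only [List.map_ofFn, Function.comp_def] at hs
        simp only [I, J, e, Nat.cast_mul, ZMod.natCast_val, ZMod.cast_id', id]
        rw [hs, ← hint, mul_comm]
        rfl
      rw [hz, ← mul_assoc, ← Algebra.commutes _ E.X, mul_assoc, ← mul_assoc E.X, ← pow_succ',
        add_comm _ 1, ← hx, ← hy, ← map_mul, ← map_mul, Algebra.algebraMap_eq_smul_one, map_smul,
        smul_eq_mul]
      ring
    simp only [LinearMap.comp_apply, LinearMap.mulLeft_apply, hval] at h
    simp only [← mul_assoc] at h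
    rw [← Finset.sum_mul, ← Finset.sum_mul, ← Finset.sum_mul] at h
    have hx0 : x ≠ 0 := fun h0 => pow_ne_zero _ E.X_ne (by rw [← hx, h0, map_zero])
    have hy0 : y ≠ 0 := fun h0 => pow_ne_zero _ E.Y_ne (by rw [← hy, h0, map_zero])
    simpa [hx0, hy0, tau_one_ne E.T] using h
  let enum := (Fintype.equivFin (Equiv.Perm (Fin (l + 1)))).symm
  have hz := Matrix.eq_zero_of_forall_pow_sum_mul_pow_eq_zero
    (f := fun m => zz E ^ e (enum m)) (v := fun m => c (w ∘ enum m))
    (he.comp enum.injective) fun k => by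
      rw [← hsum k]
      exact Equiv.sum_comp enum fun π => c (w ∘ π) * (zz E ^ e π) ^ (k : ℕ)
  have := congrFun hz (enum.symm 1)
  simpa using this

end P199K.Vanish
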