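import Vale.Agent.P199.Kurosh.Vanish.Series

/-!
Evaluation of series at points: multiplicativity, composition, the Leibniz rule and first-order
perturbation.
-/

open Finset HahnSeries

namespace P199K.Vanish

set_option backward.isDefEq.respectTransparency false

section Trunc

variable {K : ℕ} {C B : Type} [Ring C] [Ring B] (ι : C →+* B) (y : Fin K → B)

omit [Ring C] in
theorem evalTrunc_def (ι : C → B) (f : NS K C) (N : ℕ) :
    evalTrunc ι y f N =
      ∑ l ∈ Finset.range (N + 1), ∑ v : Fin l → Fin K,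
        ι (f (List.ofFn v)) * NS.wordProd y (List.ofFn v) := rfl

theorem evalTrunc_zero (f : NS K C) : evalTrunc ι y f 0 = ι (f []) := by
  simp [evalTrunc_def, NS.wordProd]

theorem evalTrunc_succ (hc : ∀ i c, Commute (y i) (ι c)) (f : NS K C) (N : ℕ) :
    evalTrunc ι y f (N + 1) = ι (f []) + ∑ i, y i * evalTrunc ι y (NS.shift i f) N := by
  rw [evalTrunc_def, Finset.sum_range_succ', add_comm]
  congr 1
  · simp [NS.wordProd]
  · simp_rw [evalTrunc_def, Finset.mul_sum]
    rw [Finset.sum_comm]
    refine Finset.sum_congr rfl fun l _ => ?_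
    rw [← Fintype.sum_prod_type']
    refine Fintype.sum_equiv (Fin.consEquiv fun _ : Fin (l + 1) => Fin K).symm _ _ fun v => ?_
    have : List.ofFn v = v 0 :: List.ofFn (fun a : Fin l => v a.succ) := List.ofFn_succ
    simp only [this, NS.wordProd, List.map_cons, List.prod_cons, NS.shift_apply]
    rw [← mul_assoc, ← (hc (v 0) _).eq, mul_assoc]
    rfl

theorem evalTrunc_const_mul (c : C) (f : NS K C) (N : ℕ) :
    evalTrunc ι y (NS.const c * f) N = ι c * evalTrunc ι y f N := by
  have h : ∀ w, ((NS.const c : NS K C) * f) w = c * f w := NS.const_mul c f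
  simp only [evalTrunc_def, h, map_mul, mul_assoc, Finset.mul_sum]

theorem evalTrunc_const (c : C) (N : ℕ) : evalTrunc ι y (NS.const c) N = ι c := by
  rw [evalTrunc_def, Finset.sum_eq_single 0]
  · simp [NS.wordProd]
  · intro l _ hl
    obtain ⟨l, rfl⟩ := Nat.exists_eq_succ_of_ne_zero hl
    simp [List.ofFn_succ]
  · simp

theorem evalTrunc_add (f g : NS K C) (N : ℕ) :
    evalTrunc ι y (f + g) N = evalTrunc ι y f N + evalTrunc ι y g N := by
  simp only [evalTrunc_def, NS.add_apply, map_add, add_mul, Finset.sum_add_distrib]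

theorem map_evalTrunc {B' : Type} [Ring B'] (φ : B →+* B') (f : NS K C) (N : ℕ) :
    φ (evalTrunc ι y f N) = evalTrunc (φ.comp ι) (φ ∘ y) f N := by
  simp only [evalTrunc_def, map_sum, map_mul, NS.wordProd, map_list_prod, List.map_map]
  rfl

end Trunc

section Vanishing

variable {K K' : ℕ} {C : Type} [Ring C]

theorem mul_apply_eq_zero (m : ℕ) {g : NS K C} (hg : ∀ w, w.length < m → g w = 0) :
    ∀ (w : List (Fin K)) (f : NS K C), w.length < m → (f * g) w = 0
  | [], f, h => by rw [NS.mul_nil, hg [] h, mul_zero]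
  | i :: w, f, h => by
    rw [NS.mul_cons, hg _ h, mul_zero, zero_add]
    exact mul_apply_eq_zero m hg w _ (lt_trans (Nat.lt_succ_self _) h)

theorem wordProd_apply_eq_zero {Y : Fin K' → NS K C} (h0 : ∀ i, Y i [] = 0) :
    ∀ (v : List (Fin K')) (w : List (Fin K)), w.length < v.length → NS.wordProd Y v w = 0
  | [], w, h => by simp at h
  | i :: v, [], _ => by simp [NS.wordProd, h0]
  | i :: v, a :: w, h => by
    rw [NS.wordProd, List.map_cons, List.prod_cons, NS.mul_cons, h0, zero_mul, zero_add]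
    exact mul_apply_eq_zero v.length (fun w hw => wordProd_apply_eq_zero h0 v w hw) w _
      (Nat.lt_of_succ_lt_succ h)

/-- The constant embedding after truncation at any high enough degree. -/
theorem evalTrunc_stable {Y : Fin K' → NS K C} (h0 : ∀ i, Y i [] = 0) (f : NS K' C)
    (w : List (Fin K)) {N : ℕ} (hN : w.length ≤ N) :
    evalTrunc (fun c : C => (NS.const c : NS K C)) Y f N w =
      evalTrunc (fun c : C => (NS.const c : NS K C)) Y f w.length w := by
  induction N, hN using Nat.le_induction with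
  | base => rfl
  | succ N hN ih =>
    rw [← ih, evalTrunc_def, evalTrunc_def, Finset.sum_range_succ _ (N + 1), NS.add_apply, add_eq_left]
    let ev : NS K C →+ C := { toFun := fun g => g w, map_zero' := rfl, map_add' := fun _ _ => rfl }
    show ev _ = 0
    refine (map_sum ev _ _).trans (Finset.sum_eq_zero fun v _ => ?_)
    show ((NS.const (f (List.ofFn v)) : NS K C) * NS.wordProd Y (List.ofFn v)) w = 0
    rw [NS.const_mul, wordProd_apply_eq_zero h0 _ _ (by simp; omega), mul_zero]

end Vanishing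

variable {S : Stg} {M : ℕ} {E : Sym S M} {K : ℕ}

theorem commute_ι_of_mem {x : LaurentSeries E.T.C} (hx : ∀ n, x.coeff n ∈ E.E) (c : S.C) :
    Commute x (E.ι c) := by
  ext n
  show (x * HahnSeries.single 0 (E.emb.iC c)).coeff n = (HahnSeries.single 0 (E.emb.iC c) * x).coeff n
  rw [coeff_mul_single_zero, coeff_single_zero_mul]
  exact (E_commute E (hx n) c).symm.eq

theorem ι_coeff (c : S.C) (n : ℤ) : (E.ι c).coeff n = if n = 0 then E.emb.iC c else 0 := by
  show (HahnSeries.single 0 (E.emb.iC c)).coeff n = _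
  rcases eq_or_ne n 0 with rfl | h
  · simp
  · rw [coeff_single_of_ne h, if_neg h]

theorem ord_ι (c : S.C) : OrdGE 0 (E.ι c) := ord_C _

theorem D_ι (c : S.C) : D (E.ι c) = 0 := D_C _

variable (P : Point E K)

theorem ord_wordProd {k : ℤ} (hk : ∀ i, OrdGE k (P.p i)) (w : List (Fin K)) :
    OrdGE (w.length * k) (NS.wordProd P.p w) := by
  rw [NS.wordProd, ← List.length_map (f := P.p)]
  exact ord_list_prod fun z hz => by
    obtain ⟨i, -, rfl⟩ := List.mem_map.1 hz
    exact hk i

theorem ord_wordProd0 (w : List (Fin K)) : OrdGE 0 (NS.wordProd P.p w) :=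
  ord_mono (by positivity) (ord_wordProd P P.small w)

theorem ord_evalTrunc (f : NS K S.C) (N : ℕ) : OrdGE 0 (evalTrunc E.ι P.p f N) :=
  ord_sum fun _ _ => ord_sum fun _ _ => ord_mul_left (ord_ι _) (ord_wordProd0 P _)

theorem evalTrunc_step (f : NS K S.C) (N : ℕ) :
    OrdGE ((N : ℤ) + 1) (evalTrunc E.ι P.p f (N + 1) - evalTrunc E.ι P.p f N) := by
  rw [evalTrunc_def, evalTrunc_def, Finset.sum_range_succ _ (N + 1), add_sub_cancel_left]
  refine ord_sum fun v _ => ord_mul_right (ord_ι _) (ord_mono ?_ (ord_wordProd P P.small _))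
  simp

theorem evalTrunc_le (f : NS K S.C) {n N : ℕ} (h : n ≤ N) :
    OrdGE ((n : ℤ) + 1) (evalTrunc E.ι P.p f N - evalTrunc E.ι P.p f n) := by
  induction N, h using Nat.le_induction with
  | base => rw [sub_self]; exact ord_zero
  | succ N hN ih =>
    rw [← sub_add_sub_cancel _ (evalTrunc E.ι P.p f N)]
    exact ord_add (ord_mono (by omega) (evalTrunc_step P f N)) ih

theorem ord_eval (f : NS K S.C) : OrdGE 0 (P.eval f) := fun _ hn => if_pos hn

theorem eval_spec (f : NS K S.C) (N : ℕ) :
    OrdGE ((N : ℤ) + 1) (P.eval f - evalTrunc E.ι P.p f N) := by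
  intro m hm
  rw [coeff_sub, sub_eq_zero]
  rcases lt_or_ge m 0 with h | h
  · rw [ord_eval P f m h, ord_evalTrunc P f N m h]
  · lift m to ℕ using h
    show (if (m : ℤ) < 0 then 0 else (evalTrunc E.ι P.p f (m : ℤ).toNat).coeff m) = _
    rw [if_neg (by omega), Int.toNat_natCast]
    exact (coeff_eq_of_ord (evalTrunc_le P f (n := m) (N := N) (by omega)) (by omega)).symm

theorem eval_coeff (f : NS K S.C) {N : ℕ} {m : ℤ} (h : m ≤ N) :
    (P.eval f).coeff m = (evalTrunc E.ι P.p f N).coeff m :=
  coeff_eq_of_ord (eval_spec P f N) (by omega)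

theorem eq_of_forall_ord {x y : LaurentSeries E.T.C}
    (h : ∀ N : ℕ, OrdGE ((N : ℤ) + 1) (x - y)) : x = y :=
  HahnSeries.ext (funext fun m => coeff_eq_of_ord (h m.toNat) (by omega))

theorem commute_p (i : Fin K) (c : S.C) : Commute (P.p i) (E.ι c) := commute_ι_of_mem (P.mem i) c

theorem evalTrunc_mul (N : ℕ) : ∀ f g : NS K S.C, OrdGE ((N : ℤ) + 1)
    (evalTrunc E.ι P.p (f * g) N - evalTrunc E.ι P.p f N * evalTrunc E.ι P.p g N) := by
  induction N with
  | zero =>
    intro f g
    rw [evalTrunc_zero, evalTrunc_zero, evalTrunc_zero, NS.mul_nil, map_mul, sub_self]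
    exact ord_zero
  | succ N ih =>
    intro f g
    have h1 : evalTrunc E.ι P.p (f * g) (N + 1) = E.ι (f []) * evalTrunc E.ι P.p g (N + 1) +
        ∑ i, P.p i * evalTrunc E.ι P.p (NS.shift i f * g) N := by
      rw [evalTrunc_succ _ _ (commute_p P) (f * g), evalTrunc_succ _ _ (commute_p P) g, NS.mul_nil,
        map_mul, mul_add, add_assoc, Finset.mul_sum, ← Finset.sum_add_distrib]
      congr 1
      refine Finset.sum_congr rfl fun i _ => ?_
      rw [NS.shift_mul, evalTrunc_add, evalTrunc_const_mul, mul_add, ← mul_assoc, ← mul_assoc,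
        (commute_p P i (f [])).eq]
    have h2 : evalTrunc E.ι P.p f (N + 1) * evalTrunc E.ι P.p g (N + 1) =
        E.ι (f []) * evalTrunc E.ι P.p g (N + 1) +
          ∑ i, P.p i * (evalTrunc E.ι P.p (NS.shift i f) N * evalTrunc E.ι P.p g (N + 1)) := by
      rw [evalTrunc_succ _ _ (commute_p P) f, add_mul, Finset.sum_mul]
      simp only [mul_assoc]
    rw [h1, h2, add_sub_add_left_eq_sub, ← Finset.sum_sub_distrib]
    refine ord_sum fun i _ => ?_
    rw [← mul_sub, show ((N + 1 : ℕ) : ℤ) + 1 = 1 + ((N : ℤ) + 1) by push_cast; ring]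
    refine ord_mul (P.small i) ?_
    have : evalTrunc E.ι P.p (NS.shift i f * g) N -
        evalTrunc E.ι P.p (NS.shift i f) N * evalTrunc E.ι P.p g (N + 1) =
        (evalTrunc E.ι P.p (NS.shift i f * g) N -
          evalTrunc E.ι P.p (NS.shift i f) N * evalTrunc E.ι P.p g N) -
        evalTrunc E.ι P.p (NS.shift i f) N *
          (evalTrunc E.ι P.p g (N + 1) - evalTrunc E.ι P.p g N) := by noncomm_ring
    rw [this]
    exact ord_sub (ih _ _) (ord_mul_right (ord_evalTrunc P _ _) (evalTrunc_step P g N))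

/-- Evaluation at a point as a ring homomorphism. -/
noncomputable def evalHom : NS K S.C →+* LaurentSeries E.T.C :=
  RingHom.mk'
    { toFun := P.eval
      map_one' := eq_of_forall_ord fun N => by
        have := eval_spec P 1 N
        rwa [NS.one_def, evalTrunc_const, map_one, ← NS.one_def] at this
      map_mul' := fun f g => eq_of_forall_ord fun N => by
        have h : P.eval (f * g) - P.eval f * P.eval g =
            (P.eval (f * g) - evalTrunc E.ι P.p (f * g) N) +
            (evalTrunc E.ι P.p (f * g) N - evalTrunc E.ι P.p f N * evalTrunc E.ι P.p g N) -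
            (P.eval f - evalTrunc E.ι P.p f N) * P.eval g -
            evalTrunc E.ι P.p f N * (P.eval g - evalTrunc E.ι P.p g N) := by noncomm_ring
        rw [h]
        exact ord_sub (ord_sub (ord_add (eval_spec P _ N) (evalTrunc_mul P N f g))
          (ord_mul_left (eval_spec P f N) (ord_eval P g)))
          (ord_mul_right (ord_evalTrunc P f N) (eval_spec P g N)) }
    fun f g => eq_of_forall_ord fun N => by
      show OrdGE _ (P.eval (f + g) - (P.eval f + P.eval g))
      have := ord_sub (ord_sub (eval_spec P (f + g) N) (eval_spec P f N)) (eval_spec P g N)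
      rw [evalTrunc_add] at this
      convert this using 1
      abel

theorem evalHom_apply (f : NS K S.C) : evalHom P f = P.eval f := rfl

theorem eval_const (c : S.C) : P.eval (NS.const c) = E.ι c := eq_of_forall_ord fun N => by
  have := eval_spec P (NS.const c) N
  rwa [evalTrunc_const] at this

theorem wordProd_mem (hM : 0 < M) (w : List (Fin K)) (n : ℤ) :
    (NS.wordProd P.p w).coeff n ∈ E.E := by
  induction w generalizing n with
  | nil =>
    show (1 : LaurentSeries E.T.C).coeff n ∈ E.E
    rw [coeff_one]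
    split
    · exact one_mem_E E hM
    · exact zero_mem _
  | cons i w ih =>
    rw [NS.wordProd, List.map_cons, List.prod_cons]
    exact coeff_mul_mem E hM (P.mem i) ih n

theorem ι_scalar_mul_mem {a : S.F} {x : LaurentSeries E.T.C} (hx : ∀ n, x.coeff n ∈ E.E) (n : ℤ) :
    (E.ι (algebraMap S.F S.C a) * x).coeff n ∈ E.E := by
  show (HahnSeries.single 0 (E.emb.iC (algebraMap S.F S.C a)) * x).coeff n ∈ E.E
  rw [coeff_single_zero_mul, E.emb.compat, ← Algebra.smul_def]
  exact Submodule.smul_mem _ _ (hx n)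

/-- The value of a scalar series has coefficients in the monomial span. -/
theorem eval_scalar_mem (hM : 0 < M) (y : List (Fin K) → S.F) (n : ℤ) :
    (P.eval (fun u => algebraMap S.F S.C (y u))).coeff n ∈ E.E := by
  rw [eval_coeff P (fun u => algebraMap S.F S.C (y u) : NS K S.C) (N := n.toNat) (by omega),
    evalTrunc_def, HahnSeries.coeff_sum]
  refine Submodule.sum_mem _ fun l _ => ?_
  rw [HahnSeries.coeff_sum]
  exact Submodule.sum_mem _ fun v _ => ι_scalar_mul_mem (wordProd_mem P hM _) n

/-- Evaluation commutes with composition. -/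
theorem eval_compY {o : Obj} {M : ℕ} {E : Sym o.S M} (Q : Point E 2) (P : Point E o.K)
    (Y : Fin o.K → NS 2 o.S.F) (h0 : ∀ i, Y i [] = 0)
    (hP : ∀ i, P.p i = Q.eval (fun u => algebraMap o.S.F o.S.C (Y i u))) :
    Q.eval (compY o.f Y) = P.eval o.f := by
  refine eq_of_forall_ord fun N => ?_
  let Y' : Fin o.K → NS 2 o.S.C := fun i u => algebraMap o.S.F o.S.C (Y i u)
  have hY' : ∀ i, Y' i [] = 0 := fun i => by simp [Y', h0]
  let g : NS 2 o.S.C := evalTrunc (NS.constHom : o.S.C →+* NS 2 o.S.C) Y' o.f N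
  have hg : ∀ w : List (Fin 2), w.length ≤ N → compY o.f Y w = g w := fun w hw =>
    (evalTrunc_stable hY' o.f w hw).symm
  have h1 : Q.eval g = evalTrunc E.ι P.p o.f N := by
    rw [← evalHom_apply]
    show evalHom Q (evalTrunc (NS.constHom : o.S.C →+* NS 2 o.S.C) Y' o.f N) = _
    rw [map_evalTrunc]
    have e1 : (evalHom Q).comp NS.constHom = E.ι := RingHom.ext fun c => eval_const Q c
    have e2 : (evalHom Q) ∘ Y' = P.p := funext fun i => (hP i).symm
    rw [e1, e2]
  have h2 : evalTrunc E.ι Q.p (compY o.f Y) N = evalTrunc E.ι Q.p g N := by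
    refine Finset.sum_congr rfl fun l hl => Finset.sum_congr rfl fun v _ => ?_
    rw [hg _ (by simp; exact Nat.lt_succ_iff.1 (Finset.mem_range.1 hl))]
  have : Q.eval (compY o.f Y) - P.eval o.f =
      (Q.eval (compY o.f Y) - evalTrunc E.ι Q.p (compY o.f Y) N) -
        (Q.eval g - evalTrunc E.ι Q.p g N) - (P.eval o.f - evalTrunc E.ι P.p o.f N) := by
    rw [h1, h2]; abel
  rw [this]
  exact ord_sub (ord_sub (eval_spec Q _ N) (eval_spec Q g N)) (eval_spec P _ N)

/-- The Leibniz rule. -/
theorem deriv_D (f : NS K S.C) {m : ℤ} (hm : 0 ≤ m) :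
    P.deriv f (fun i => D (P.p i)) m = m • (P.eval f).coeff m := by
  rw [eval_coeff P f (N := m.toNat + 1) (by omega), ← D_coeff]
  have hD : D (evalTrunc E.ι P.p f (m.toNat + 1)) = ∑ l ∈ Finset.range (m.toNat + 2),
      ∑ v : Fin l → Fin K, ∑ i : Fin l, E.ι (f (List.ofFn v)) *
        NS.wordProd P.p ((List.ofFn v).take i) * D (P.p (v i)) *
          NS.wordProd P.p ((List.ofFn v).drop (i + 1)) := by
    let Dh : LaurentSeries E.T.C →+ LaurentSeries E.T.C := AddMonoidHom.mk' D D_add
    show Dh _ = _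
    rw [evalTrunc_def, map_sum]
    refine Finset.sum_congr rfl fun l _ => ?_
    rw [map_sum]
    refine Finset.sum_congr rfl fun v _ => ?_
    show D _ = _
    rw [D_mul, D_ι, zero_mul, zero_add, NS.wordProd, List.map_ofFn, D_prod, Finset.mul_sum]
    simp [NS.wordProd, List.map_take, List.map_drop, List.map_ofFn, mul_assoc]
  rw [hD]
  simp only [Point.deriv, HahnSeries.coeff_sum]

theorem deriv_neg (f : NS K S.C) {x : Fin K → LaurentSeries E.T.C} (hx : ∀ i, OrdGE 0 (x i)) {m : ℤ}
    (hm : m < 0) : P.deriv f x m = 0 :=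
  Finset.sum_eq_zero fun _ _ => Finset.sum_eq_zero fun _ _ => Finset.sum_eq_zero fun _ _ =>
    ord_mul_left (ord_mul_right (ord_mul_left (ord_ι _) (ord_wordProd0 P _)) (hx _))
      (ord_wordProd0 P _) m hm

/-- Only the linear part contributes to a derivative in a direction of high order. -/
theorem deriv_high (f : NS K S.C) {k : ℤ} (hp : ∀ i, OrdGE 2 (P.p i))
    {x : Fin K → LaurentSeries E.T.C} (hx : ∀ i, OrdGE k (x i)) {m : ℤ} (hm : m < k + 2) :
    P.deriv f x m = (∑ i, E.ι (f [i]) * x i).coeff m := by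
  rw [Point.deriv, Finset.sum_range_succ', Finset.sum_eq_single (a := 0)]
  · simp only [Finset.univ_eq_empty, Finset.sum_empty, Finset.sum_const_zero, add_zero,
      HahnSeries.coeff_sum]
    rw [← (Equiv.funUnique (Fin 1) (Fin K)).symm.sum_comp]
    simp [NS.wordProd, List.ofFn_succ, uniqueElim]
  · intro l _ hl
    refine Finset.sum_eq_zero fun v _ => Finset.sum_eq_zero fun i _ => ?_
    have h1 := ord_mul_right (ord_ι (f (List.ofFn v))) (ord_wordProd P hp ((List.ofFn v).take i))
    have h2 := ord_mul (ord_mul h1 (hx (v i))) (ord_wordProd P hp ((List.ofFn v).drop (i + 1)))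
    refine h2 m (lt_of_lt_of_le hm ?_)
    simp only [List.length_take, List.length_drop, List.length_ofFn]
    omega
  · simp

theorem wordProd_sub {k : ℤ} (P' : Point E K) (hp : ∀ i, OrdGE 2 (P.p i))
    (hp' : ∀ i, OrdGE 2 (P'.p i)) (hd : ∀ i, OrdGE k (P'.p i - P.p i)) : ∀ w : List (Fin K),
    OrdGE k (NS.wordProd P'.p w - NS.wordProd P.p w) ∧
      (2 ≤ w.length → OrdGE (k + 2) (NS.wordProd P'.p w - NS.wordProd P.p w))
  | [] => ⟨by simp [NS.wordProd, ord_zero], fun h => by simp at h⟩
  | i :: w => by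
    have e : NS.wordProd P'.p (i :: w) - NS.wordProd P.p (i :: w) =
        (P'.p i - P.p i) * NS.wordProd P'.p w +
          P.p i * (NS.wordProd P'.p w - NS.wordProd P.p w) := by
      simp only [NS.wordProd, List.map_cons, List.prod_cons]
      noncomm_ring
    rw [e]
    refine ⟨ord_add (ord_mul_left (hd i) (ord_wordProd0 P' w))
      (ord_mono (by omega) (ord_mul (hp i) (wordProd_sub P' hp hp' hd w).1)), fun h => ?_⟩
    refine ord_add (ord_mono ?_ (ord_mul (hd i) (ord_wordProd P' hp' w)))
      (ord_mono (by omega) (ord_mul (hp i) (wordProd_sub P' hp hp' hd w).1))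
    simp only [List.length_cons] at h
    omega

/-- First-order perturbation of a point. -/
theorem eval_perturb (f : NS K S.C) (P' : Point E K) {k : ℤ} (hp : ∀ i, OrdGE 2 (P.p i))
    (hp' : ∀ i, OrdGE 2 (P'.p i)) (hd : ∀ i, OrdGE k (P'.p i - P.p i)) :
    OrdGE (k + 2) (P'.eval f - P.eval f - ∑ i, E.ι (f [i]) * (P'.p i - P.p i)) := by
  obtain ⟨N, hN⟩ : ∃ N : ℕ, k + 2 ≤ (N : ℤ) + 1 ∧ 1 ≤ N := ⟨(k.toNat + 1), by omega⟩
  have h : OrdGE (k + 2) (evalTrunc E.ι P'.p f N - evalTrunc E.ι P.p f N -
      ∑ i, E.ι (f [i]) * (P'.p i - P.p i)) := by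
    obtain ⟨N, rfl⟩ : ∃ N', N = N' + 1 := ⟨N - 1, by omega⟩
    have e : ∀ Q : Point E K, evalTrunc E.ι Q.p f (N + 1) =
        (∑ l ∈ Finset.range N, ∑ v : Fin (l + 2) → Fin K,
          E.ι (f (List.ofFn v)) * NS.wordProd Q.p (List.ofFn v)) +
          ∑ i, E.ι (f [i]) * Q.p i + E.ι (f []) := fun Q => by
      rw [evalTrunc_def, Finset.sum_range_succ', Finset.sum_range_succ']
      congr 1
      · congr 1
        refine Fintype.sum_equiv (Equiv.funUnique (Fin 1) (Fin K)) _ _ fun v => ?_
        simp [NS.wordProd, List.ofFn_succ]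
      · simp [NS.wordProd]
    rw [e, e]
    have : ∀ a b c a' b' : LaurentSeries E.T.C,
        a + b + c - (a' + b' + c) - (b - b') = a - a' := fun a b c a' b' => by abel
    simp only [mul_sub, Finset.sum_sub_distrib, this]
    rw [← Finset.sum_sub_distrib]
    refine ord_sum fun l _ => ?_
    rw [← Finset.sum_sub_distrib]
    refine ord_sum fun v _ => ?_
    rw [← mul_sub]
    exact ord_mul_right (ord_ι _) ((wordProd_sub P P' hp hp' hd _).2 (by simp))
  have h' := ord_add (ord_sub (ord_mono (n := min (k + 2) ((N : ℤ) + 1)) (min_le_right _ _)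
    (eval_spec P' f N)) (ord_mono (min_le_right _ _) (eval_spec P f N)))
    (ord_mono (min_le_left _ _) h)
  intro m hm
  by_cases hmN : m < (N : ℤ) + 1
  · have := h' m (lt_min hm hmN)
    convert this using 2
    abel
  · omega

theorem prod_single (U : Fin K → E.T.C) : ∀ w : List (Fin K),
    NS.wordProd (fun s => single (2 : ℤ) (U s)) w = single (2 * (w.length : ℤ)) (NS.wordProd U w)
  | [] => by simp [NS.wordProd]
  | i :: w => by
    have := prod_single U w
    simp only [NS.wordProd, List.map_cons, List.prod_cons] at this ⊢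
    rw [this, single_mul_single, List.length_cons]
    push_cast
    ring_nf

end P199K.Vanish
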