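import Vale.Agent.P199.Kurosh.Vanish.Eval

/-!
The key identity: along an approaching point built from a partial solution, the limit of the cokernel
kills the leading residual.
-/

open Finset HahnSeries

namespace P199K.Vanish

set_option backward.isDefEq.respectTransparency false

/-- The homogeneous part of degree `n` of a two-letter series, evaluated at a pair. -/
noncomputable def RU {S : Stg} {M : ℕ} (E : Sym S M) (R : NS 2 S.C) (U : Fin 2 → E.T.C) (n : ℕ) :
    E.T.C :=
  ∑ v : Fin n → Fin 2, E.emb.iC (R (List.ofFn v)) * (List.ofFn fun a => U (v a)).prod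

section Point

variable {S : Stg} {M : ℕ} {E : Sym S M}

theorem single_sum {R ι : Type} [Ring R] [Fintype ι] (k : ℤ) (f : ι → R) :
    single k (∑ i, f i) = ∑ i, single k (f i) := map_sum (HahnSeries.single.addMonoidHom k) f _

theorem single_zsmul {R : Type} [Ring R] (k c : ℤ) (r : R) : single k (c • r) = c • single k r :=
  map_zsmul (HahnSeries.single.addMonoidHom k) c r

theorem ι_mul_single (c : S.C) (k : ℤ) (u : E.T.C) :
    E.ι c * single k u = single k (E.emb.iC c * u) := by
  show single (0 : ℤ) (E.emb.iC c) * single k u = _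
  rw [single_mul_single, zero_add]

theorem eval_sub_const {K : ℕ} (P : Point E K) (hp : ∀ i, OrdGE 2 (P.p i)) (f : NS K S.C) :
    OrdGE 2 (P.eval f - E.ι (f [])) := by
  have h := eval_spec P f 1
  rw [show evalTrunc E.ι P.p f 1 = E.ι (f []) + ∑ i, P.p i * evalTrunc E.ι P.p (NS.shift i f) 0
    from evalTrunc_succ _ _ (commute_p P) f 0] at h
  have h2 := ord_add (ord_mono (n := 2) (by norm_num) h)
    (ord_sum (n := 2) fun i (_ : i ∈ univ) =>
      ord_mul_left (hp i) (ord_evalTrunc P (NS.shift i f) 0))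
  convert h2 using 1
  abel

/-- The point `u_s ↦ s ^ 2 U_s`. -/
noncomputable def dilate (U : Fin 2 → E.T.C) (hU : ∀ s, U s ∈ E.E) : Point E 2 where
  p s := single (2 : ℤ) (U s)
  small s := ord_single _ (by norm_num)
  mem s k := by
    rcases eq_or_ne k 2 with rfl | h
    · rw [coeff_single_same]
      exact hU s
    · rw [coeff_single_of_ne h]
      exact zero_mem _

theorem dilate_ord (U : Fin 2 → E.T.C) (hU : ∀ s, U s ∈ E.E) (s : Fin 2) :
    OrdGE 2 ((dilate U hU).p s) := ord_single _ le_rfl

/-- The lowest part of a series vanishing below degree `n` at the dilated point. -/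
theorem eval_dilate (U : Fin 2 → E.T.C) (hU : ∀ s, U s ∈ E.E) (g : NS 2 S.C) (n : ℕ)
    (hg : ∀ w : List (Fin 2), w.length < n → g w = 0) :
    OrdGE (2 * (n : ℤ) + 1) ((dilate U hU).eval g - single (2 * (n : ℤ)) (RU E g U n)) := by
  have h : OrdGE (2 * (n : ℤ) + 1)
      (evalTrunc E.ι (dilate U hU).p g (2 * n) - single (2 * (n : ℤ)) (RU E g U n)) := by
    rw [evalTrunc_def, ← Finset.sum_erase_add _ _ (show n ∈ Finset.range (2 * n + 1) by simp; omega)]
    have e : ∑ v : Fin n → Fin 2, E.ι (g (List.ofFn v)) *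
        NS.wordProd (dilate U hU).p (List.ofFn v) = single (2 * (n : ℤ)) (RU E g U n) := by
      rw [RU, single_sum]
      refine Finset.sum_congr rfl fun v _ => ?_
      show _ * NS.wordProd (fun s => single (2 : ℤ) (U s)) _ = _
      rw [prod_single, ι_mul_single, List.length_ofFn, NS.wordProd, List.map_ofFn]
      rfl
    rw [e, add_sub_cancel_right]
    refine ord_sum fun l hl => ord_sum fun v _ => ?_
    rcases lt_or_gt_of_ne (Finset.ne_of_mem_erase hl) with h | h
    · rw [hg _ (by simpa using h), map_zero, zero_mul]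
      exact ord_zero
    · refine ord_mul_right (ord_ι _)
        (ord_mono ?_ (ord_wordProd _ (dilate_ord U hU) (List.ofFn v)))
      simp only [List.length_ofFn]
      omega
  have := ord_add (ord_mono (n := 2 * (n : ℤ) + 1) (by push_cast; exact le_rfl)
    (eval_spec (dilate U hU) g (2 * n))) h
  rwa [sub_add_sub_cancel] at this

end Point

theorem tangent_identity {B : Type} [Ring B] {T H G A DT DH DA DErr Err e : B}
    (h1 : T * H = H * A + Err) (h2 : DT * H + T * DH = DH * A + H * DA + DErr)
    (hHG : H * G = 1 - e) (hGH : G * H = 1 - e) :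
    DT - (DH * G * T - T * (DH * G)) - H * DA * G =
      DT * e + DErr * G + DH * e * A * G - DH * G * T * e - DH * G * Err * G := by
  have a1 : A * G = G * T - G * T * e - G * Err * G + e * A * G := by
    have : G * T - G * T * e = A * G - e * A * G + G * Err * G := by
      calc G * T - G * T * e = G * T * (1 - e) := by rw [mul_sub, mul_one]
        _ = G * (T * H) * G := by rw [← hHG]; simp only [mul_assoc]
        _ = G * H * (A * G) + G * Err * G := by rw [h1]; noncomm_ring
        _ = _ := by rw [hGH]; noncomm_ring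
    rw [this]
    abel
  have a2 : DT - DT * e = (DH * A + H * DA + DErr - T * DH) * G := by
    rw [← h2, add_sub_cancel_right, mul_assoc, hHG, mul_sub, mul_one]
  calc _ = (DT - DT * e) + DT * e - (DH * G * T - T * (DH * G)) - H * DA * G := by abel
    _ = DH * (A * G) + DErr * G + DT * e - DH * G * T := by rw [a2]; noncomm_ring
    _ = _ := by rw [a1]; noncomm_ring

theorem key (hgrow : GrowExistsStmt) (hpert : PerturbStmt) (hlim : LimitStmt) {root o : Obj}
    (hmin : Obj.Minimal root o) (m : Model o) (hm : m.Spans) {M : ℕ} (hd : o.d < M) (h5 : 5 ≤ M)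
    (E : Sym o.S M) {n : ℕ} (hn : 2 ≤ n) (Y : Fin o.K → NS 2 o.S.F) (h : NS 2 o.S.C)
    (hs : o.SolvedBelow n Y h) (U : Fin 2 → E.T.C) (hU : ∀ s, U s ∈ E.E) {z : E.T.C}
    (hz : z ∈ m.KZ E) : E.T.τ (z * RU E (o.residual Y h) U n) = 0 := by
  obtain ⟨hY0, hh0, hres⟩ := hs
  have hM : 0 < M := by omega
  -- the direction `η` with value `Z` modulo commutators
  obtain ⟨_, ⟨x0, rfl⟩, _, ⟨c0, rfl⟩, e0⟩ :=
    Submodule.mem_sup.1 (inf_le_left (a := o.T) m.w0_mem)
  obtain ⟨_, ⟨x1, rfl⟩, _, ⟨c1, rfl⟩, e1⟩ :=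
    Submodule.mem_sup.1 (inf_le_left (a := o.T) m.w1_mem)
  let η : Fin o.K → E.T.C := fun i => E.emb.iF (x0 i) • E.X + E.emb.iF (x1 i) • E.Y
  have hη : ∀ i, η i ∈ E.E := fun i => add_mem (Submodule.smul_mem _ _ (X_mem_E E hM))
    (Submodule.smul_mem _ _ (Y_mem_E E hM))
  let a : E.T.C := ∑ i, E.emb.iC (o.f [i]) * η i
  let Θ : E.T.C := E.emb.iC o.θ
  let b : E.T.C := -(E.emb.iC c0 * E.X + E.emb.iC c1 * E.Y)
  have ha : a = m.Z E + (Θ * b - b * Θ) := by
    have hDf : ∀ x : Fin o.K → o.S.F,
        E.emb.iC (o.Df x) = ∑ i, algebraMap E.T.F E.T.C (E.emb.iF (x i)) * E.emb.iC (o.f [i]) :=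
      fun x => by
        show E.emb.iC (∑ i, x i • o.f [i]) = _
        simp only [Algebra.smul_def, map_sum, map_mul, E.emb.compat]
    have had : ∀ (c : o.S.C) (W : E.T.C), Commute Θ W →
        E.emb.iC (o.S.ad o.θ c) * W = Θ * (E.emb.iC c * W) - E.emb.iC c * W * Θ := fun c W hW => by
      show E.emb.iC (o.θ * c - c * o.θ) * W = _
      rw [map_sub, map_mul, map_mul, sub_mul, mul_assoc, mul_assoc _ Θ W, hW.eq, ← mul_assoc _ W]
    have hsum : a = E.emb.iC (o.Df x0) * E.X + E.emb.iC (o.Df x1) * E.Y := by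
      rw [hDf, hDf, Finset.sum_mul, Finset.sum_mul, ← Finset.sum_add_distrib]
      refine Finset.sum_congr rfl fun i _ => ?_
      simp only [η, Algebra.smul_def, mul_add]
      rw [← mul_assoc, ← mul_assoc, Algebra.commutes, Algebra.commutes]
    have hX : Commute Θ E.X := (E.X_comm o.θ).symm
    have hY : Commute Θ E.Y := (E.Y_comm o.θ).symm
    rw [hsum, Model.Z, mul_add, ← mul_assoc, ← mul_assoc, ← map_mul, ← map_mul, ← e0, ← e1, map_add,
      map_add, add_mul, add_mul, had c0 E.X hX, had c1 E.Y hY]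
    simp only [b]
    noncomm_ring
  -- the points
  let Q := dilate U hU
  have hQ : ∀ s, OrdGE 2 (Q.p s) := dilate_ord U hU
  let Y' : Fin o.K → NS 2 o.S.C := fun i u => algebraMap o.S.F o.S.C (Y i u)
  have hY' : ∀ i, OrdGE 2 (Q.eval (Y' i)) := fun i => by
    have := eval_sub_const Q hQ (Y' i)
    rwa [show Y' i [] = 0 by simp [Y', hY0], map_zero, sub_zero] at this
  let P₀ : Point E o.K :=
    { p := fun i => Q.eval (Y' i)
      small := fun i => ord_mono (by norm_num) (hY' i)
      mem := fun i k => eval_scalar_mem Q hM (Y i) k }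
  let k : ℤ := 2 * (n : ℤ) - 1
  have hk : 3 ≤ k := by omega
  let ξ : Fin o.K → LaurentSeries E.T.C := fun i => single k (η i)
  have hξ : ∀ i j, (ξ i).coeff j ∈ E.E := fun i j => by
    rcases eq_or_ne j k with rfl | h
    · simp only [ξ, coeff_single_same]
      exact hη i
    · simp only [ξ, coeff_single_of_ne h]
      exact zero_mem _
  let P₁ : Point E o.K :=
    { p := fun i => P₀.p i + ξ i
      small := fun i => ord_add (P₀.small i) (ord_single _ (by omega))
      mem := fun i j => by rw [coeff_add]; exact add_mem (P₀.mem i j) (hξ i j) }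
  obtain ⟨P, hgen, hPP⟩ := hpert o M (2 * n + 2) hmin.state.1.1 hmin.state.1.2.1 hM E P₁
  have hd0 : ∀ i, OrdGE (2 * (n : ℤ) + 1) (P.p i - P₀.p i - ξ i) := fun i => by
    have := ord_mono (n := 2 * (n : ℤ) + 1) (by push_cast; omega) (hPP i)
    rwa [show P.p i - P₁.p i = P.p i - P₀.p i - ξ i from (sub_sub _ _ _).symm] at this
  have hd1 : ∀ i, OrdGE k (P.p i - P₀.p i) := fun i => by
    have := ord_add (ord_mono (n := k) (by omega) (hd0 i)) (ord_single (η i) le_rfl)
    rwa [sub_add_cancel] at this
  have hP2 : ∀ i, OrdGE 2 (P.p i) := fun i => by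
    have := ord_add (ord_mono (n := 2) (by omega) (hd1 i)) (hY' i)
    rwa [sub_add_cancel] at this
  obtain ⟨Gr⟩ := hgrow o M hmin.state.1.1 hmin.state.1.2.1 hM E P hgen
  -- congruences
  let T := P.eval o.f
  let R : E.T.C := RU E (o.residual Y h) U n
  let sa : LaurentSeries E.T.C := single k a
  let sR : LaurentSeries E.T.C := single (2 * (n : ℤ)) R
  let H := Q.eval h
  let A := E.ι o.θ + sa + sR
  have hH1 : OrdGE 2 (H - 1) := by
    have := eval_sub_const Q hQ h
    rwa [hh0, map_one] at this
  have hH0 : OrdGE 0 H := ord_eval Q h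
  have hsum_a : ∑ i, E.ι (o.f [i]) * ξ i = sa := by
    simp only [ξ, ι_mul_single, sa, a, single_sum]
  have hlin : OrdGE (2 * (n : ℤ) + 1) (T - P₀.eval o.f - sa) := by
    have h1 := ord_mono (n := 2 * (n : ℤ) + 1) (by omega)
      (eval_perturb P₀ o.f P (k := k) hY' hP2 hd1)
    have h2 : OrdGE (2 * (n : ℤ) + 1) (∑ i, E.ι (o.f [i]) * (P.p i - P₀.p i - ξ i)) :=
      ord_sum fun i _ => ord_mul_right (ord_ι _) (hd0 i)
    have := ord_add h1 h2
    simp only [mul_sub, Finset.sum_sub_distrib, hsum_a] at this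
    convert this using 1
    simp only [T]
    abel
  have hres' : OrdGE (2 * (n : ℤ) + 1) (P₀.eval o.f * H - H * E.ι o.θ - sR) := by
    have := eval_dilate U hU (o.residual Y h) n hres
    rw [show (dilate U hU).eval (o.residual Y h) = P₀.eval o.f * H - H * E.ι o.θ from ?_] at this
    · exact this
    · show evalHom Q (compY o.f Y * h - h * NS.const o.θ) = _
      rw [map_sub, map_mul, map_mul, evalHom_apply, evalHom_apply, evalHom_apply,
        eval_compY Q P₀ Y hY0 (fun i => rfl), eval_const]
  have hval : OrdGE (2 * (n : ℤ) + 1) (T * H - H * (E.ι o.θ + sa) - sR) := by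
    rw [show T * H - H * (E.ι o.θ + sa) - sR = (P₀.eval o.f * H - H * E.ι o.θ - sR) +
      (T - P₀.eval o.f - sa) * H + (sa * (H - 1) - (H - 1) * sa) by noncomm_ring]
    exact ord_add (ord_add hres' (ord_mul_left hlin hH0))
      (ord_sub (ord_mono (by omega) (ord_mul (ord_single a le_rfl) hH1))
        (ord_mono (by omega) (ord_mul hH1 (ord_single a (le_refl k)))))
  let App : Approach m E P :=
    { n := 2 * n - 1
      pos := by omega
      h := H
      h_int := hH0
      h_lead := by
        have := coeff_eq_of_ord hH1 (k := 0) (by norm_num)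
        rwa [coeff_one, if_pos rfl] at this
      a := a
      b := b
      a_eq := ha
      value := by
        have hc : ((2 * n - 1 : ℕ) : ℤ) = k := by omega
        rw [hc]
        have := ord_add (ord_mono (n := k + 1) (by omega) hval)
          (ord_single (n := k + 1) (m := 2 * (n : ℤ)) R (by omega))
        simp only [sR, sa, sub_add_cancel] at this
        exact this }
  obtain ⟨-, -, hkz⟩ := hlim root o hmin m M hm hd h5 E P App Gr
  obtain ⟨z', hz', hz0, hzlead⟩ := hkz z hz
  -- the pairing with the limit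
  let φ : LaurentSeries E.T.C →+ E.T.F :=
    { toFun := fun v => E.T.τ ((z' * v).coeff (2 * (n : ℤ)))
      map_zero' := by simp
      map_add' := fun v v' => by simp [mul_add] }
  have hφ_hi : ∀ v, OrdGE (2 * (n : ℤ) + 1) v → φ v = 0 := fun v hv => by
    show E.T.τ _ = 0
    rw [ord_mul_right hz0 hv _ (by omega), map_zero]
  have hφ_cong : ∀ v v', OrdGE (2 * (n : ℤ) + 1) (v - v') → φ v = φ v' := fun v v' h =>
    sub_eq_zero.1 (by rw [← map_sub]; exact hφ_hi _ h)
  have hφ_T : ∀ v : LaurentSeries E.T.C, (v : Gr.child.S.C) ∈ Gr.child.T → φ v = 0 := fun v hv =>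
    coeff_tau_of_laurent E.T (x := z' * v) (hz' _ hv) _
  -- first tangent
  have hv1 : φ (D T) = 0 := hφ_T _ (Gr.tangent (fun i => D (P.p i)) (D T)
    (fun i j => by rw [D_coeff]; exact zsmul_mem (P.mem i j) j)
    (fun i => ord_D (ord_mono (by norm_num) (P.small i)))
    fun j => by
      rcases lt_or_ge j 0 with hj | hj
      · rw [deriv_neg P o.f (fun i => ord_D (ord_mono (by norm_num) (P.small i))) hj, D_coeff,
          ord_eval P o.f j hj, smul_zero]
      · rw [deriv_D P o.f hj, D_coeff])
  -- second tangent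
  have hξ0 : ∀ i, OrdGE 0 (ξ i) := fun i => ord_single _ (by omega)
  let v₂ : LaurentSeries E.T.C := HahnSeries.ofSuppBddBelow (fun j => P.deriv o.f ξ j)
    ⟨0, fun j hj => by
      by_contra hneg
      exact hj (deriv_neg P o.f hξ0 (not_le.1 hneg))⟩
  have hv2 : φ sa = 0 := by
    rw [← hφ_cong v₂ sa fun j hj => by
      rw [coeff_sub, sub_eq_zero]
      show P.deriv o.f ξ j = _
      rw [deriv_high P o.f hP2 (k := k) (fun i => ord_single _ le_rfl) (by omega), hsum_a]]
    exact hφ_T _ (Gr.tangent ξ v₂ hξ hξ0 fun j => rfl)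
  -- bracket
  have hbr : ∀ x : LaurentSeries E.T.C, φ (x * T - T * x) = 0 := fun x => by
    rw [← neg_sub, map_neg, neg_eq_zero]
    let x' : Gr.child.S.C := x
    have hmem : Gr.child.S.ad Gr.child.θ x' ∈ Gr.child.T := Submodule.mem_sup_right ⟨x', rfl⟩
    rw [show Gr.child.θ = T from Gr.base] at hmem
    exact hφ_T (T * x - x * T) hmem
  -- the identity
  let u : LaurentSeries E.T.C := 1 - H
  let G := ∑ j ∈ Finset.range (2 * n + 1), u ^ j
  let e := u ^ (2 * n + 1)
  have hu : OrdGE 1 u := by
    have := ord_neg (ord_mono (n := 1) (by norm_num) hH1)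
    rwa [neg_sub] at this
  have hG0 : OrdGE 0 G := ord_sum fun j _ => ord_mono (by positivity) (ord_pow hu j)
  have he : OrdGE (2 * (n : ℤ) + 1) e := ord_mono (by simp) (ord_pow hu _)
  have hHG : H * G = 1 - e := by
    have := mul_neg_geom_sum u (2 * n + 1)
    rwa [sub_sub_cancel] at this
  have hGH : G * H = 1 - e := by
    have := geom_sum_mul_neg u (2 * n + 1)
    rwa [sub_sub_cancel] at this
  have hG1 : OrdGE 2 (G - 1) := by
    rw [show G - 1 = -((H - 1) * G) - e by rw [sub_mul, hHG, one_mul]; abel]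
    exact ord_sub (ord_neg (ord_mul_left hH1 hG0)) (ord_mono (by omega) he)
  let Err := T * H - H * A
  have hErr : OrdGE (2 * (n : ℤ) + 1) Err := by
    rw [show Err = (T * H - H * (E.ι o.θ + sa) - sR) - (H - 1) * sR by
      simp only [Err, A]; noncomm_ring]
    exact ord_sub hval (ord_mono (by omega) (ord_mul hH1 (ord_single R (le_refl (2 * (n : ℤ))))))
  have hA0 : OrdGE 0 A :=
    ord_add (ord_add (ord_ι _) (ord_single _ (by omega))) (ord_single _ (by omega))
  have hT0 : OrdGE 0 T := ord_eval P o.f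
  have hDA : D A = single k (k • a) + single (2 * (n : ℤ)) ((2 * (n : ℤ)) • R) := by
    simp only [A, D_add, D_ι, zero_add, sa, sR, D_single]
  have hDA_ord : OrdGE k (D A) := by
    rw [hDA]
    exact ord_add (ord_single _ le_rfl) (ord_single _ (by omega))
  have hid := tangent_identity (T := T) (H := H) (G := G) (A := A) (DT := D T) (DH := D H)
    (DA := D A) (DErr := D Err) (Err := Err) (e := e) (by simp only [Err]; abel)
    (by rw [← D_mul, ← D_mul, ← D_add]; simp only [Err]; congr 1; abel) hHG hGH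
  have hcong : OrdGE (2 * (n : ℤ) + 1) (D T - ((D H * G * T - T * (D H * G)) + D A)) := by
    rw [show D T - ((D H * G * T - T * (D H * G)) + D A) =
      (D T - (D H * G * T - T * (D H * G)) - H * D A * G) +
        ((H - 1) * D A * G + D A * (G - 1)) by noncomm_ring, hid]
    have hDH := ord_D hH0
    refine ord_add (ord_sub (ord_sub (ord_add (ord_add ?_ ?_) ?_) ?_) ?_) (ord_add ?_ ?_)
    · exact ord_mul_right (ord_D hT0) he
    · exact ord_mul_left (ord_D hErr) hG0
    · exact ord_mul_left (ord_mul_left (ord_mul_right hDH he) hA0) hG0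
    · exact ord_mul_right (ord_mul_left (ord_mul_left hDH hG0) hT0) he
    · exact ord_mul_left (ord_mul_right (ord_mul_left hDH hG0) hErr) hG0
    · exact ord_mul_left (ord_mono (by omega) (ord_mul hH1 hDA_ord)) hG0
    · exact ord_mono (by omega) (ord_mul hDA_ord hG1)
  have hmain := hφ_cong _ _ hcong
  have hka : φ (single k (k • a)) = 0 := by rw [single_zsmul, map_zsmul, hv2, smul_zero]
  rw [hv1, map_add, hbr, zero_add, hDA, map_add, hka, zero_add, single_zsmul,
    map_zsmul] at hmain
  have hlast : φ (single (2 * (n : ℤ)) R) = E.T.τ (z * R) := by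
    show E.T.τ ((z' * single (2 * (n : ℤ)) R).coeff (2 * (n : ℤ))) = _
    rw [coeff_mul_single, sub_self, hzlead]
  rw [hlast] at hmain
  exact (smul_eq_zero.1 hmain.symm).resolve_left (by omega)

end P199K.Vanish
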