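import Vale.Agent.P199.Kurosh.Vanish.Trace
import Vale.Agent.P199.Kurosh.Vanish.Mono

/-!
Orders, the derivation `D = s d/ds` and the trace on Laurent series over a stage.
-/

open Finset HahnSeries

namespace P199K.Vanish

section Ord

variable {R : Type} [Ring R] {m n : ℤ} {x y : LaurentSeries R}

theorem ord_mono (h : n ≤ m) (hx : OrdGE m x) : OrdGE n x := fun k hk => hx k (lt_of_lt_of_le hk h)

theorem ord_zero : OrdGE n (0 : LaurentSeries R) := fun _ _ => rfl

theorem ord_add (hx : OrdGE n x) (hy : OrdGE n y) : OrdGE n (x + y) := fun k hk => by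
  rw [coeff_add, hx k hk, hy k hk, add_zero]

theorem ord_sub (hx : OrdGE n x) (hy : OrdGE n y) : OrdGE n (x - y) := fun k hk => by
  rw [coeff_sub, hx k hk, hy k hk, sub_zero]

theorem ord_neg (hx : OrdGE n x) : OrdGE n (-x) := by simpa using ord_sub (ord_zero (n := n)) hx

theorem ord_sum {ι : Type} {s : Finset ι} {f : ι → LaurentSeries R} (h : ∀ i ∈ s, OrdGE n (f i)) :
    OrdGE n (∑ i ∈ s, f i) := fun k hk => by
  rw [HahnSeries.coeff_sum]
  exact Finset.sum_eq_zero fun i hi => h i hi k hk

theorem ord_single (r : R) (h : n ≤ m) : OrdGE n (single m r) := fun _ hk =>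
  coeff_single_of_ne (ne_of_lt (lt_of_lt_of_le hk h))

theorem ord_C (r : R) : OrdGE 0 (HahnSeries.C r : LaurentSeries R) := by
  rw [C_apply]
  exact ord_single r le_rfl

theorem ord_one : OrdGE 0 (1 : LaurentSeries R) := by simpa using ord_C (1 : R)

theorem ord_mul (hx : OrdGE m x) (hy : OrdGE n y) : OrdGE (m + n) (x * y) := fun k hk => by
  rw [coeff_mul]
  refine Finset.sum_eq_zero fun p hp => ?_
  have h := (mem_antidiagonal.1 hp).2.2
  rcases lt_or_ge p.1 m with h1 | h1
  · rw [hx _ h1, zero_mul]
  · rw [hy p.2 (by omega), mul_zero]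

theorem ord_mul_left (hx : OrdGE n x) (hy : OrdGE 0 y) : OrdGE n (x * y) := by
  simpa using ord_mul hx hy

theorem ord_mul_right (hx : OrdGE 0 x) (hy : OrdGE n y) : OrdGE n (x * y) := by
  simpa using ord_mul hx hy

theorem ord_pow (hx : OrdGE 1 x) : ∀ k : ℕ, OrdGE (k : ℤ) (x ^ k)
  | 0 => by simpa using ord_one
  | k + 1 => by rw [pow_succ, Nat.cast_succ]; exact ord_mul (ord_pow hx k) hx

theorem ord_list_prod : ∀ {l : List (LaurentSeries R)}, (∀ z ∈ l, OrdGE n z) →
    OrdGE (l.length * n) l.prod
  | [], _ => by simpa using ord_one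
  | a :: l, h => by
    rw [List.prod_cons, List.length_cons]
    refine ord_mono ?_ (ord_mul (h a (by simp)) (ord_list_prod fun z hz => h z (by simp [hz])))
    push_cast
    ring_nf
    exact le_rfl

theorem ord_list_prod0 {l : List (LaurentSeries R)} (h : ∀ z ∈ l, OrdGE 0 z) : OrdGE 0 l.prod := by
  simpa using ord_list_prod h

/-- Congruent series have equal low coefficients. -/
theorem coeff_eq_of_ord (h : OrdGE n (x - y)) {k : ℤ} (hk : k < n) : x.coeff k = y.coeff k :=
  sub_eq_zero.1 (by rw [← coeff_sub]; exact h k hk)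

end Ord

section Mem

variable {S : Stg} {M : ℕ} (E : Sym S M) (hM : 0 < M)

include hM in
theorem coeff_mul_mem {x y : LaurentSeries E.T.C} (hx : ∀ n, x.coeff n ∈ E.E)
    (hy : ∀ n, y.coeff n ∈ E.E) (n : ℤ) : (x * y).coeff n ∈ E.E := by
  rw [coeff_mul]
  exact Submodule.sum_mem _ fun p _ => mul_mem_E E hM (hx _) (hy _)

end Mem

section Derivation

variable {R : Type} [Ring R]

/-- The derivation `s d/ds`. -/
noncomputable def D (x : LaurentSeries R) : LaurentSeries R :=
  ⟨fun k => k • x.coeff k, x.isPWO_support.mono fun k hk => by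
    intro h0
    exact hk (by simp [h0])⟩

theorem D_coeff (x : LaurentSeries R) (k : ℤ) : (D x).coeff k = k • x.coeff k := rfl

theorem D_add (x y : LaurentSeries R) : D (x + y) = D x + D y := by
  ext k
  simp [D_coeff, smul_add]

theorem D_sub (x y : LaurentSeries R) : D (x - y) = D x - D y := by
  ext k
  simp [D_coeff, smul_sub]

theorem D_single (k : ℤ) (r : R) : D (single k r) = single k (k • r) := by
  ext j
  rcases eq_or_ne j k with rfl | h
  · simp [D_coeff]
  · simp [D_coeff, coeff_single_of_ne h]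

theorem D_C (r : R) : D (HahnSeries.C r : LaurentSeries R) = 0 := by
  rw [C_apply, D_single, zero_smul, map_zero]

theorem D_mul (x y : LaurentSeries R) : D (x * y) = D x * y + x * D y := by
  ext k
  have hx : (D x).support ⊆ x.support := fun j hj h0 => hj (by simp [D_coeff, h0])
  have hy : (D y).support ⊆ y.support := fun j hj h0 => hj (by simp [D_coeff, h0])
  rw [coeff_add, D_coeff, coeff_mul, coeff_mul_left' x.isPWO_support hx,
    coeff_mul_right' y.isPWO_support hy, Finset.smul_sum, ← Finset.sum_add_distrib]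
  refine Finset.sum_congr rfl fun p hp => ?_
  rw [D_coeff, D_coeff, smul_mul_assoc, mul_smul_comm, ← add_smul, (mem_antidiagonal.1 hp).2.2]

theorem ord_D {n : ℤ} {x : LaurentSeries R} (hx : OrdGE n x) : OrdGE n (D x) := fun k hk => by
  rw [D_coeff, hx k hk, smul_zero]

theorem D_prod : ∀ {l : ℕ} (g : Fin l → LaurentSeries R),
    D (List.ofFn g).prod =
      ∑ i : Fin l, ((List.ofFn g).take i).prod * D (g i) * ((List.ofFn g).drop (i + 1)).prod
  | 0, g => by
    simp only [List.ofFn_zero, List.prod_nil, Finset.univ_eq_empty, Finset.sum_empty]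
    simpa using D_C (1 : R)
  | l + 1, g => by
    rw [List.ofFn_succ, List.prod_cons, D_mul, D_prod, Fin.sum_univ_succ, Finset.mul_sum]
    simp [mul_assoc]

end Derivation

section Trace

variable (S : Stg)

/-- The trace of the Laurent stage vanishes only where the coefficientwise trace does. -/
theorem coeff_tau_of_laurent {x : LaurentSeries S.C} (h : S.laurent.τ x = 0) (k : ℤ) :
    S.τ (x.coeff k) = 0 := by
  let f : LaurentSeries S.C →+ LaurentSeries S.F :=
    { toFun := fun c => c.map S.τ
      map_zero' := HahnSeries.ext (funext fun j => map_zero S.τ)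
      map_add' := fun a b => HahnSeries.ext (funext fun j => map_add S.τ _ _) }
  have hc : ∀ (c : LaurentSeries S.C) (j : ℤ), (f c).coeff j = S.τ (c.coeff j) := fun _ _ => rfl
  have hsmul : ∀ (a : LaurentSeries S.F) (c : LaurentSeries S.C),
      f (laurentMap (algebraMap S.F S.C) a * c) = a * f c := by
    intro a c
    refine HahnSeries.ext (funext fun j => ?_)
    rw [hc, coeff_mul_left' a.isPWO_support (fun i hi h0 => hi (by simp [h0])),
      coeff_mul_right' (y := f c) c.isPWO_support (fun i hi h0 => hi (by rw [hc, h0, map_zero])),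
      map_sum]
    refine Finset.sum_congr rfl fun p _ => ?_
    rw [laurentMap_coeff, ← Algebra.smul_def, map_smul, smul_eq_mul, hc]
  have hcomm : ∀ a b : LaurentSeries S.C, f (a * b) = f (b * a) := by
    intro a b
    refine HahnSeries.ext (funext fun j => ?_)
    rw [hc, hc, coeff_mul, coeff_mul, map_sum, map_sum]
    refine Finset.sum_nbij' Prod.swap Prod.swap ?_ ?_ (fun _ _ => rfl) (fun _ _ => rfl)
      fun p _ => tau_mul_comm S _ _
    all_goals
      intro p hp
      simp only [Finset.mem_antidiagonal, Prod.fst_swap, Prod.snd_swap] at hp ⊢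
      exact ⟨hp.2.1, hp.1, by rw [add_comm]; exact hp.2.2⟩
  have hf := factor_trace S.laurent (R := LaurentSeries S.F) (RingHom.id (LaurentSeries S.F))
    f hsmul hcomm x
  rw [h] at hf
  have h0 : f x = 0 := hf.trans (by
    show @HMul.hMul S.laurent.F S.laurent.F S.laurent.F _ (0 / S.laurent.τ 1) (f 1) = 0
    exact mul_eq_zero_of_left (zero_div _) _)
  rw [← hc, h0]
  rfl

end Trace

end P199K.Vanish
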