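import Vale.Agent.P199.Kurosh.Stmts

/-!
Trace facts on a stage, and the factorisation of the trace of a symbol extension on products
`emb c * e` with `e` in the monomial span.
-/

open Module

namespace P199K.Vanish

variable (S : Stg)

theorem tau_mul_comm (a b : S.C) : S.τ (a * b) = S.τ (b * a) := by
  have h : ∀ x y : S.C, S.τ (x * y) =
      LinearMap.trace S.F S.C (LinearMap.mul S.F S.C x * LinearMap.mul S.F S.C y) := fun x y => by
    rw [Stg.τ, LinearMap.comp_apply]
    congr 1
    ext z
    simp [mul_assoc]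
  rw [h, h, LinearMap.trace_mul_comm]

theorem tau_one : S.τ 1 = (S.dim : S.F) := by
  have h : LinearMap.mul S.F S.C 1 = LinearMap.id := by ext z; simp
  rw [Stg.τ, LinearMap.comp_apply, h, LinearMap.trace_id]
  rfl

theorem tau_one_ne : S.τ 1 ≠ 0 := by
  rw [tau_one]
  exact Nat.cast_ne_zero.2 (Module.finrank_pos (R := S.F) (M := S.C)).ne'

theorem eq_zero_of_tau {a : S.C} (h : ∀ b, S.τ (a * b) = 0) : a = 0 := by
  by_contra ha
  exact tau_one_ne S (by rw [← h a⁻¹, mul_inv_cancel₀ ha])

theorem mem_cent_iff {θ z : S.C} : z ∈ S.cent θ ↔ Commute θ z := by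
  simp [Stg.cent, Stg.ad, LinearMap.mem_ker, sub_eq_zero, commute_iff_eq]

theorem mem_cent_of_orth {θ z : S.C} (h : ∀ x, S.τ (z * S.ad θ x) = 0) : z ∈ S.cent θ := by
  rw [mem_cent_iff, commute_iff_eq, ← sub_eq_zero, ← neg_eq_zero]
  refine eq_zero_of_tau S fun x => ?_
  have := h x
  simp only [Stg.ad, LinearMap.sub_apply, LinearMap.mulLeft_apply, LinearMap.mulRight_apply,
    mul_sub, map_sub, ← mul_assoc] at this
  rw [neg_sub, sub_mul, map_sub, mul_assoc θ z x, tau_mul_comm S θ (z * x)]
  exact this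

theorem commute_of_gen {θ z g : S.C} (hz : z ∈ S.cent θ) (hg : g ∈ S.gen θ) : Commute z g := by
  rw [mem_cent_iff] at hz
  change g ∈ Algebra.adjoin S.F ({θ} : Set S.C) at hg
  induction hg using Algebra.adjoin_induction with
  | mem x hx => rw [Set.mem_singleton_iff.1 hx]; exact hz.symm
  | algebraMap r => exact (Algebra.commutes r z).symm
  | add x y _ _ hx hy => exact hx.add_right hy
  | mul x y _ _ hx hy => exact hx.mul_right hy

/-- A semilinear functional vanishing on commutators is a multiple of the trace. -/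
theorem factor_trace {R : Type} [Field R] (g : S.F →+* R) (f : S.C →+ R)
    (hsmul : ∀ (a : S.F) c, f (a • c) = g a * f c) (hcomm : ∀ a b, f (a * b) = f (b * a)) (c : S.C) :
    f c = g (S.τ c / S.τ 1) * f 1 := by
  let Z : Submodule S.F S.C :=
    Submodule.span S.F (Set.range fun p : S.C × S.C => p.1 * p.2 - p.2 * p.1)
  have hZ : ∀ x ∈ Z, f x = 0 := by
    intro x hx
    induction hx using Submodule.span_induction with
    | mem x hx => obtain ⟨p, rfl⟩ := hx; rw [map_sub, hcomm, sub_self]
    | zero => exact map_zero f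
    | add x y _ _ hx hy => rw [map_add, hx, hy, add_zero]
    | smul a x _ hx => rw [hsmul, hx, mul_zero]
  have hmem : ∀ x, S.τ x = 0 → x ∈ Z := by
    intro x hx
    by_contra hxZ
    obtain ⟨φ, hφx, hφZ⟩ := Submodule.exists_dual_map_eq_bot_of_notMem hxZ inferInstance
    have hφ : ∀ a b, φ (a * b) = φ (b * a) := fun a b => by
      have : φ (a * b - b * a) ∈ Z.map φ := Submodule.mem_map_of_mem
        (Submodule.subset_span ⟨(a, b), rfl⟩)
      rw [hφZ, Submodule.mem_bot, map_sub, sub_eq_zero] at this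
      exact this
    let B : S.C →ₗ[S.F] Module.Dual S.F S.C := (LinearMap.mul S.F S.C).compr₂ S.τ
    have hB : Function.Surjective B := by
      refine (LinearMap.injective_iff_surjective_of_finrank_eq_finrank
        (Subspace.dual_finrank_eq (K := S.F) (V := S.C)).symm).1 ?_
      refine (injective_iff_map_eq_zero B).2 fun a ha => eq_zero_of_tau S fun b => ?_
      exact LinearMap.congr_fun ha b
    obtain ⟨a, ha⟩ := hB φ
    have ha' : ∀ b, S.τ (a * b) = φ b := fun b => LinearMap.congr_fun ha b
    obtain ⟨r, hr⟩ := S.central a fun y => sub_eq_zero.1 <| eq_zero_of_tau S fun b => by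
      rw [sub_mul, map_sub, mul_assoc, ha', mul_assoc y a b, tau_mul_comm S y, mul_assoc, ha', hφ,
        sub_self]
    apply hφx
    rw [← ha', ← hr, ← Algebra.smul_def, map_smul, hx, smul_zero]
  have h1 := hZ _ (hmem (c - (S.τ c / S.τ 1) • 1) (by
    rw [map_sub, map_smul, smul_eq_mul, div_mul_cancel₀ _ (tau_one_ne S), sub_self]))
  rw [map_sub, hsmul, sub_eq_zero] at h1
  exact h1

variable {S} {M : ℕ} (E : Sym S M)

theorem commute_XY (c : S.C) : Commute E.X (E.emb.iC c) ∧ Commute E.Y (E.emb.iC c) :=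
  ⟨E.X_comm c, E.Y_comm c⟩

theorem E_commute {e : E.T.C} (he : e ∈ E.E) (c : S.C) : Commute (E.emb.iC c) e := by
  induction he using Submodule.span_induction with
  | mem x hx =>
    obtain ⟨p, rfl⟩ := hx
    exact ((commute_XY E c).1.symm.pow_right _).mul_right ((commute_XY E c).2.symm.pow_right _)
  | zero => exact Commute.zero_right _
  | add x y _ _ hx hy => exact hx.add_right hy
  | smul a x _ hx => exact hx.smul_right a

/-- The trace of a symbol extension factorises on `emb c * e`. -/
theorem tau_emb_mul {e : E.T.C} (he : e ∈ E.E) (c : S.C) :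
    E.T.τ (E.emb.iC c * e) = E.emb.iF (S.τ c / S.τ 1) * E.T.τ e := by
  let f : S.C →+ E.T.F :=
    { toFun := fun c => E.T.τ (E.emb.iC c * e)
      map_zero' := by simp
      map_add' := fun a b => by simp [add_mul] }
  have hsmul : ∀ (a : S.F) c, f (a • c) = E.emb.iF a * f c := fun a c => by
    change E.T.τ (E.emb.iC (a • c) * e) = E.emb.iF a * E.T.τ (E.emb.iC c * e)
    rw [Algebra.smul_def, map_mul E.emb.iC, E.emb.compat, mul_assoc, ← Algebra.smul_def, map_smul,
      smul_eq_mul]
  have hcomm : ∀ a b, f (a * b) = f (b * a) := fun a b => by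
    change E.T.τ (E.emb.iC (a * b) * e) = E.T.τ (E.emb.iC (b * a) * e)
    rw [map_mul E.emb.iC, map_mul E.emb.iC, mul_assoc, (E_commute E he b).eq, ← mul_assoc,
      tau_mul_comm E.T (E.emb.iC a * e) (E.emb.iC b), ← mul_assoc]
  have := factor_trace S E.emb.iF f hsmul hcomm c
  simpa [f] using this

end P199K.Vanish
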